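import Vale.Agent.P165.PowerClass

open Vale.Agent.P165

/-- For every infinite, connected, locally finite, quasi-transitive, nonamenable graph `G`, all
sufficiently large powers `G^k` (again graphs of this class) satisfy `p_c < p_u`. -/
theorem Vale.Agent.Results.P165.AllPowers.result {V : Type*} [Infinite V] (G : SimpleGraph V)
    (hconn : G.Connected) (hlf : ∀ v, (G.neighborSet v).Finite)
    (hqt : IsQuasiTransitive G) (hna : IsNonamenable G) :
    ∃ k₀ : ℕ, ∀ k ≥ k₀,
      ((powerGraph G k).Connected ∧ (∀ v, ((powerGraph G k).neighborSet v).Finite) ∧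
        IsQuasiTransitive (powerGraph G k) ∧ IsNonamenable (powerGraph G k)) ∧
      pc (powerGraph G k) < pu (powerGraph G k) := by
  obtain ⟨k₀, hk₀⟩ := powers_final hconn hlf hqt hna
  refine ⟨max k₀ 1, fun k hk => ⟨?_, hk₀ k ((le_max_left _ _).trans hk)⟩⟩
  exact power_class hconn hlf hqt hna ((le_max_right _ _).trans hk)
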