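import Vale.Agent.P165.Final

open Vale.Agent.P165

/-- `p_c < p_u` for all quasi-transitive graphs of high degree relative to their spectral gap, or
to their relative isoperimetric constant. -/
theorem Vale.Agent.Results.P165.HighDegree.result.{u} :
    (∀ (V : Type u) [Infinite V] (G : SimpleGraph V), G.Connected →
      (∀ v, (G.neighborSet v).Finite) → IsQuasiTransitive G →
      ∀ D : ℕ, (∀ v, (G.neighborSet v).ncard = D) →
      ∀ o : V, 72 ≤ (D : ℝ) * (1 - rwRadius G D o) ^ 3 → pc G < pu G) ∧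
    (∀ (V : Type u) [Infinite V] (G : SimpleGraph V), G.Connected →
      (∀ v, (G.neighborSet v).Finite) → ∀ Δ κ ε : ℝ, 0 < κ → 0 < ε →
      (∀ v, ((G.neighborSet v).ncard : ℝ) ≤ Δ) →
      (∀ x y, κ * Δ ≤ ({z | G.Adj x z ∧ ∃ φ : G ≃g G, φ y = z}.ncard : ℝ)) →
      (∀ A : Set V, A.Finite →
        ε * Δ * (A.ncard : ℝ) ≤ ({e : V × V | e.1 ∈ A ∧ e.2 ∉ A ∧ G.Adj e.1 e.2}.ncard : ℝ)) →
      4608 ≤ Δ * κ ^ 8 * ε ^ 6 → pc G < pu G) :=
  ⟨fun _ _ _ hconn hlf hqt D hreg o hbig => spectral_final hconn hlf hqt D hreg o hbig,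
    fun _ _ _ hconn hlf _ _ _ hκ hε hΔ hdens hiso hbig =>
      iso_final hconn hlf hκ hε hΔ hdens hiso hbig⟩
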