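import Vale.Agent.P165.Final

open Vale.Agent.P165

/-- High degree criterion, powers and graphs containing a large power, Cartesian powers,
lexicographic products. -/
theorem Vale.Agent.Results.P165.Main.result.{u} :
    (∀ (V : Type u) [Infinite V] (G : SimpleGraph V), G.Connected →
      (∀ v, (G.neighborSet v).Finite) → IsQuasiTransitive G →
      (∀ D : ℕ, (∀ v, (G.neighborSet v).ncard = D) →
        ∀ o : V, 72 ≤ (D : ℝ) * (1 - rwRadius G D o) ^ 3 → pc G < pu G) ∧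
      (IsNonamenable G →
        (∃ k₀ : ℕ, ∀ k ≥ k₀, pc (powerGraph G k) < pu (powerGraph G k)) ∧
        (∃ m₀ : ℕ, ∀ m ≥ m₀, ∀ K : SimpleGraph (Fin m), (∀ i j, ∃ τ : K ≃g K, τ i = j) →
          pc (lexProd G K) < pu (lexProd G K)) ∧
        ((∃ D : ℕ, ∀ v, (G.neighborSet v).ncard = D) →
          ∃ n₀ : ℕ, ∀ n ≥ n₀, pc (cartPow G n) < pu (cartPow G n)))) ∧
    (∀ (d r M : ℕ) (h : ℝ), 0 < h →
      ∃ k₀ : ℕ, ∀ (V : Type u) [Infinite V] (G : SimpleGraph V), G.Connected →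
        (∀ v, (G.neighborSet v).Finite ∧ (G.neighborSet v).ncard ≤ d) →
        (∀ A : Set V, A.Finite →
          h * (A.ncard : ℝ) ≤ ({w | w ∉ A ∧ ∃ v ∈ A, G.Adj v w}.ncard : ℝ)) →
        ∀ k ≥ k₀, ∀ H : SimpleGraph V, powerGraph G k ≤ H →
        (∀ v, (H.neighborSet v).Finite ∧
          (H.neighborSet v).ncard ≤ M * ((powerGraph G k).neighborSet v).ncard) →
        (∀ v w, ∃ φ : G ≃g G, (∀ x y, H.Adj (φ x) (φ y) ↔ H.Adj x y) ∧
          G.edist v (φ w) ≤ r) →
        pc H < pu H) :=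
  ⟨fun _ _ _ hconn hlf hqt =>
    ⟨fun D hreg o hbig => spectral_final hconn hlf hqt D hreg o hbig,
      fun hna => ⟨powers_final hconn hlf hqt hna, lex_final hconn hlf hqt hna,
        fun hD => hD.elim fun D hreg => cart_final hconn hlf hqt D hreg hna⟩⟩,
    sandwich_final⟩
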